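import Vale.Agent.P057.Defs

/-!
# P057: the asymptotic bookkeeping of one step of the tower
-/

namespace Vale.P057

open Filter Topology

/-- The trivial base: a single point. -/
theorem dens_base : Dens (fun A => A ⊆ {0}) 1 1 := by
  intro ε hε
  filter_upwards [eventually_ge_atTop 1] with M hM
  refine ⟨{0}, ?_, Finset.Subset.refl _, ?_⟩
  · intro x hx
    simp only [Finset.mem_singleton] at hx
    subst hx
    exact Finset.mem_range.2 hM
  · have h1 : (1:ℝ) ≤ M := by exact_mod_cast hM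
    have hL : 0 ≤ Real.logb 2 (M:ℝ) := Real.logb_nonneg one_lt_two h1
    have hle : -(1 + ε) * Real.logb 2 (M:ℝ) ^ ((((1:ℕ):ℝ))⁻¹) ≤ -Real.logb 2 (M:ℝ) := by
      simp
      nlinarith
    calc (M:ℝ) * (2:ℝ) ^ (-(1 + ε) * Real.logb 2 (M:ℝ) ^ ((((1:ℕ):ℝ))⁻¹))
        ≤ (M:ℝ) * (2:ℝ) ^ (-Real.logb 2 (M:ℝ)) := by
          gcongr
          norm_num
      _ = 1 := by
          rw [Real.rpow_neg two_pos.le, Real.rpow_logb two_pos (by norm_num) (by linarith)]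
          field_simp
      _ = _ := by simp

private lemma exp_le {b c x d F f0 ε lK lM δ γ G : ℝ} (hb : 0 ≤ b) (hd : d ≤ c * x + 1)
    (hγ : 0 ≤ γ + δ) (hroot : lM ≤ G * x) (hF : F = (γ + δ) * G) (hf : F * x ≤ (f0 + ε / 2) * x)
    (hε : b + lK ≤ ε / 2 * x) :
    -((c * b + f0) + ε) * x ≤ -lK - b * d + -(γ + δ) * lM := by
  have h1 : b * d ≤ b * (c * x + 1) := mul_le_mul_of_nonneg_left hd hb
  have h2 := mul_le_mul_of_nonneg_left hroot hγ
  subst hF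
  linear_combination h1 + h2 + hf + hε

/-- One step: from density exponent `1/p` to `1/(p+1)`. -/
theorem dens_step {P Q : Finset ℕ → Prop} {h γ c : ℝ} {p K : ℕ} (hK : 0 < K)
    (hstep : StepProp P Q h K) (hh : 1 ≤ h) (hγ : 0 ≤ γ) (hp : 1 ≤ p) (hc : 0 < c)
    (hQ : Dens Q γ p) :
    Dens P (c * Real.logb 2 h + γ * (2 / c) ^ ((p:ℝ)⁻¹)) (p + 1) := by
  intro ε hε
  have hp0 : (0:ℝ) < p := by exact_mod_cast hp
  have hpi : (0:ℝ) ≤ (p:ℝ)⁻¹ := (inv_pos.2 hp0).le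
  obtain ⟨δ, hδ, hf⟩ : ∃ δ : ℝ, 0 < δ ∧
      (γ + δ) * (2 / c + δ) ^ ((p:ℝ)⁻¹) < γ * (2 / c) ^ ((p:ℝ)⁻¹) + ε / 2 := by
    have hcont : ContinuousAt (fun δ : ℝ => (γ + δ) * (2 / c + δ) ^ ((p:ℝ)⁻¹)) 0 := by
      apply ContinuousAt.mul (by fun_prop)
      exact ContinuousAt.rpow_const (by fun_prop) (Or.inr hpi)
    have hlim := hcont.tendsto
    simp only [add_zero] at hlim
    have hev : ∀ᶠ δ in 𝓝[>] (0:ℝ),
        (γ + δ) * (2 / c + δ) ^ ((p:ℝ)⁻¹) < γ * (2 / c) ^ ((p:ℝ)⁻¹) + ε / 2 :=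
      nhdsWithin_le_nhds (hlim.eventually_lt_const (by linarith))
    obtain ⟨δ, h1, h2⟩ := (hev.and self_mem_nhdsWithin).exists
    exact ⟨δ, h2, h1⟩
  obtain ⟨M0, hM0⟩ := eventually_atTop.1 (hQ δ hδ)
  set C1 : ℝ := Real.logb 2 25 + Real.logb 2 (c + 1) + Real.logb 2 K + 2 * Real.logb 2 (2 * (K:ℝ))
    with hC1
  have hbig : ∀ᶠ x : ℝ in atTop, 1 ≤ x ∧ (M0:ℝ) ≤ c * x ∧ 1 ≤ c * x ∧
      C1 + Real.logb 2 x ≤ δ * x ∧ Real.logb 2 h + Real.logb 2 K ≤ ε / 2 * x := by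
    have hcx : Tendsto (fun x : ℝ => c * x) atTop atTop := tendsto_id.const_mul_atTop hc
    have hδx : Tendsto (fun x : ℝ => δ / 2 * x) atTop atTop :=
      tendsto_id.const_mul_atTop (by linarith)
    have hεx : Tendsto (fun x : ℝ => ε / 2 * x) atTop atTop :=
      tendsto_id.const_mul_atTop (by linarith)
    have hlog := Real.isLittleO_log_id_atTop.bound (c := δ / 2 * Real.log 2)
      (by positivity)
    filter_upwards [eventually_ge_atTop (1:ℝ), hcx.eventually_ge_atTop (M0:ℝ),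
      hcx.eventually_ge_atTop 1, hδx.eventually_ge_atTop C1,
      hεx.eventually_ge_atTop (Real.logb 2 h + Real.logb 2 K), hlog] with x h1 h2 h3 h4 h5 h6
    refine ⟨h1, h2, h3, ?_, h5⟩
    have h7 : Real.log x ≤ δ / 2 * Real.log 2 * x := by
      have h8 := le_trans (le_abs_self _) h6
      rwa [id, Real.norm_eq_abs, abs_of_pos (by linarith : (0:ℝ) < x)] at h8
    have h9 : Real.logb 2 x ≤ δ / 2 * x := by
      rw [Real.logb, div_le_iff₀ (Real.log_pos one_lt_two)]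
      linarith
    linarith
  have hx : Tendsto (fun N : ℕ => Real.logb 2 (N:ℝ) ^ ((((p + 1 : ℕ)):ℝ)⁻¹)) atTop atTop :=
    (tendsto_rpow_atTop (by positivity)).comp
      ((Real.tendsto_logb_atTop one_lt_two).comp tendsto_natCast_atTop_atTop)
  filter_upwards [hx.eventually hbig, eventually_ge_atTop 1] with N hN hN1
  set L := Real.logb 2 (N:ℝ) with hL
  set x := L ^ ((((p + 1 : ℕ)):ℝ)⁻¹) with hxdef
  obtain ⟨hx1, hxM, hxc, hxlog, hxε⟩ := hN
  have hNr : (1:ℝ) ≤ N := by exact_mod_cast hN1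
  have hL0 : 0 ≤ L := Real.logb_nonneg one_lt_two hNr
  have hx0 : (0:ℝ) < x := by linarith
  have hxp : x ^ (p + 1) = L := Real.rpow_inv_natCast_pow hL0 (by omega)
  -- the parameters
  set d := ⌈c * x⌉₊ with hd
  have hdle : c * x ≤ d := Nat.le_ceil _
  have hdlt : (d:ℝ) < c * x + 1 := Nat.ceil_lt_add_one (by positivity)
  have hd1 : (1:ℝ) ≤ d := le_trans hxc hdle
  have hdpos : 0 < d := by exact_mod_cast (lt_of_lt_of_le one_pos hd1)
  have hK1 : (1:ℝ) ≤ K := by exact_mod_cast hK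
  have hKN : (1:ℝ) ≤ 2 * ((K:ℝ) * N) := by
    have := one_le_mul_of_one_le_of_one_le hK1 hNr
    linarith
  set T := (2 * ((K:ℝ) * N)) ^ ((d:ℝ)⁻¹) with hT
  have hT1 : 1 ≤ T := Real.one_le_rpow hKN (by positivity)
  have hTd : T ^ d = 2 * ((K:ℝ) * N) := Real.rpow_inv_natCast_pow (by linarith) (by omega)
  set R := ⌈3 * T⌉₊ + 1 with hR
  have hRgt : 3 * T < (R:ℝ) := by
    have := Nat.le_ceil (3 * T)
    rw [hR]; push_cast; linarith
  have hRle : (R:ℝ) ≤ 5 * T := by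
    have := Nat.ceil_lt_add_one (show (0:ℝ) ≤ 3 * T by linarith)
    rw [hR]; push_cast; linarith
  have hRd : 2 * (K * N) * 3 ^ d < R ^ d := by
    have h1 : (3 * T) ^ d < (R:ℝ) ^ d := pow_lt_pow_left₀ hRgt (by linarith) (by omega)
    rw [mul_pow, hTd] at h1
    have h2 : ((2 * (K * N) * 3 ^ d : ℕ) : ℝ) < ((R ^ d : ℕ) : ℝ) := by
      push_cast; linarith
    exact_mod_cast h2
  set M := d * K * R ^ 2 with hM
  have hR1 : (1:ℝ) ≤ R := by linarith
  have hMd : (d:ℝ) ≤ (M:ℝ) := by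
    rw [hM]; push_cast
    have : (1:ℝ) ≤ (K:ℝ) * (R:ℝ) ^ 2 := one_le_mul_of_one_le_of_one_le hK1 (one_le_pow₀ hR1)
    nlinarith
  have hMM0 : M0 ≤ M := by exact_mod_cast le_trans hxM (le_trans hdle hMd)
  obtain ⟨A', hA', hA'Q, hA'card⟩ := hM0 M hMM0
  obtain ⟨A, hA, hAP, hAcard⟩ := hstep N d R (by omega) hdpos hRd A' hA' hA'Q
  refine ⟨A, hA, hAP, ?_⟩
  -- the logarithm of the size of the inner range
  have hM1 : (1:ℝ) ≤ M := le_trans hd1 hMd
  have hlogM : Real.logb 2 (M:ℝ) ≤ (2 / c + δ) * x ^ p := by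
    have hdx : (d:ℝ) ≤ (c + 1) * x := by linarith
    have hbd : (M:ℝ) ≤ 25 * ((c + 1) * x) * K * T ^ 2 := by
      rw [hM]; push_cast
      calc (d:ℝ) * K * (R:ℝ) ^ 2 ≤ ((c + 1) * x) * K * (5 * T) ^ 2 := by gcongr
        _ = _ := by ring
    have hTlog : Real.logb 2 T = (Real.logb 2 (2 * (K:ℝ)) + L) / d := by
      rw [hT, Real.logb_rpow_eq_mul_logb_of_pos (by linarith), ← mul_assoc,
        Real.logb_mul (by positivity) (by positivity), ← hL]
      ring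
    have hK2 : 0 ≤ Real.logb 2 (2 * (K:ℝ)) := Real.logb_nonneg one_lt_two (by linarith)
    have hTle : 2 * Real.logb 2 T ≤ 2 * Real.logb 2 (2 * (K:ℝ)) + 2 / c * x ^ p := by
      rw [hTlog]
      have h1 : Real.logb 2 (2 * (K:ℝ)) / d ≤ Real.logb 2 (2 * (K:ℝ)) := div_le_self hK2 hd1
      have h2 : L / d ≤ L / (c * x) := div_le_div_of_nonneg_left hL0 (by positivity) hdle
      have h3 : L / (c * x) = x ^ p / c := by
        rw [← hxp, pow_succ]; field_simp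
      rw [add_div]
      have h4 : 2 / c * x ^ p = 2 * (x ^ p / c) := by ring
      linarith
    have hexp : Real.logb 2 (25 * ((c + 1) * x) * (K:ℝ) * T ^ 2)
        = Real.logb 2 25 + Real.logb 2 (c + 1) + Real.logb 2 x + Real.logb 2 K
          + 2 * Real.logb 2 T := by
      have hc1 : c + 1 ≠ 0 := by linarith
      have hT0 : T ≠ 0 := by linarith
      have hK0 : (K:ℝ) ≠ 0 := by linarith
      rw [Real.logb_mul (by positivity) (by positivity), Real.logb_mul (by positivity) hK0,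
        Real.logb_mul (by norm_num) (by positivity), Real.logb_mul hc1 hx0.ne', Real.logb_pow]
      push_cast; ring
    have hmono : Real.logb 2 (M:ℝ) ≤ Real.logb 2 (25 * ((c + 1) * x) * (K:ℝ) * T ^ 2) :=
      Real.logb_le_logb_of_le one_lt_two (by linarith) hbd
    have hxxp : x ≤ x ^ p := le_self_pow₀ hx1 (by omega)
    have : δ * x ≤ δ * x ^ p := mul_le_mul_of_nonneg_left hxxp hδ.le
    rw [hexp] at hmono
    rw [hC1] at hxlog
    linarith
  have hroot : Real.logb 2 (M:ℝ) ^ ((p:ℝ)⁻¹) ≤ (2 / c + δ) ^ ((p:ℝ)⁻¹) * x := by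
    calc Real.logb 2 (M:ℝ) ^ ((p:ℝ)⁻¹) ≤ ((2 / c + δ) * x ^ p) ^ ((p:ℝ)⁻¹) :=
          Real.rpow_le_rpow (Real.logb_nonneg one_lt_two hM1) hlogM hpi
      _ = _ := by
          rw [Real.mul_rpow (by positivity) (by positivity),
            Real.pow_rpow_inv_natCast hx0.le (by omega)]
  -- combine
  set b := Real.logb 2 h with hb
  have hb0 : 0 ≤ b := Real.logb_nonneg one_lt_two hh
  have hexp : -((c * b + γ * (2 / c) ^ ((p:ℝ)⁻¹)) + ε) * x
      ≤ -Real.logb 2 (K:ℝ) - b * d + -(γ + δ) * Real.logb 2 (M:ℝ) ^ ((p:ℝ)⁻¹) :=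
    exp_le hb0 hdlt.le (add_nonneg hγ hδ.le) hroot rfl
      (mul_le_mul_of_nonneg_right hf.le hx0.le) hxε
  have hh0 : 0 < h := by linarith
  calc (N:ℝ) * (2:ℝ) ^ (-((c * b + γ * (2 / c) ^ ((p:ℝ)⁻¹)) + ε) * x)
      ≤ (N:ℝ) * (2:ℝ) ^ (-Real.logb 2 (K:ℝ) - b * d
          + -(γ + δ) * Real.logb 2 (M:ℝ) ^ ((p:ℝ)⁻¹)) := by
        gcongr
        norm_num
    _ = ((N:ℝ) * (h⁻¹) ^ d * ((M:ℝ) *
          (2:ℝ) ^ (-(γ + δ) * Real.logb 2 (M:ℝ) ^ ((p:ℝ)⁻¹))) / (M:ℝ)) / K := by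
        rw [Real.rpow_add two_pos, Real.rpow_sub two_pos, Real.rpow_neg two_pos.le,
          Real.rpow_logb two_pos (by norm_num) (by linarith), hb, Real.rpow_mul two_pos.le,
          Real.rpow_logb two_pos (by norm_num) hh0, Real.rpow_natCast, inv_pow]
        field_simp
    _ ≤ ((N:ℝ) * (h⁻¹) ^ d * (A'.card : ℝ) / (M:ℝ)) / K := by
        gcongr
    _ ≤ A.card := by
        rw [div_le_iff₀ (by linarith), mul_comm (A.card : ℝ)]
        exact hAcard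

end Vale.P057
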