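import Mathlib

/-!
# P057: definitions for the tower construction of sets without long progressions

A sequence of degree at most `D` is one killed by `D + 1` forward differences. A set avoids degree
`D` on `k` points if such a sequence with its first `k` values in the set is constant.
-/

namespace Vale.P057

open Filter

/-- No nonconstant sequence of degree at most `D` has its first `k` values in `A`. -/
def Avoids (D k : ℕ) (A : Finset ℕ) : Prop :=
  ∀ z : ℕ → ℤ, (fwdDiff 1)^[D + 1] z = 0 → (∀ j, j < k → ∃ a ∈ A, z j = (a : ℤ)) →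
    ∀ j, z j = z 0

/-- Subsets of `range M` with property `P` of relative size `2 ^ (-(γ + ε) (log M)^(1/p))` exist
for all large `M`. -/
def Dens (P : Finset ℕ → Prop) (γ : ℝ) (p : ℕ) : Prop :=
  ∀ ε : ℝ, 0 < ε → ∀ᶠ M : ℕ in atTop, ∃ A : Finset ℕ, A ⊆ Finset.range M ∧ P A ∧
    (M : ℝ) * (2 : ℝ) ^ (-(γ + ε) * Real.logb 2 M ^ ((p : ℝ)⁻¹)) ≤ A.card

/-- One step of the construction: from `Q` on a range of size `d K R ^ 2` to `P` on `range N`,
losing a factor `h` in each of `d` dimensions. -/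
def StepProp (P Q : Finset ℕ → Prop) (h : ℝ) (K : ℕ) : Prop :=
  ∀ N d R : ℕ, 0 < N → 0 < d → 2 * (K * N) * 3 ^ d < R ^ d →
    ∀ A' : Finset ℕ, A' ⊆ Finset.range (d * K * R ^ 2) → Q A' →
      ∃ A : Finset ℕ, A ⊆ Finset.range N ∧ P A ∧
        (N : ℝ) * (h⁻¹) ^ d * A'.card / ((d * K * R ^ 2 : ℕ) : ℝ) ≤ (K : ℝ) * A.card

end Vale.P057
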