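import Vale.Agent.P057.Asymp

/-!
# P057: the tower, given the two combinatorial steps
-/

namespace Vale.P057

open Filter Topology

/-- Interface: the outer step of degree `D`. -/
def OuterStep (k : ℕ) : Prop :=
  ∀ D : ℕ, 0 < D → 2 * D < k →
    ∃ K : ℕ, 0 < K ∧ StepProp (Avoids D k) (Avoids (2 * D) k) ((2:ℝ) ^ D) K

/-- Interface: the last step of degree `D`. -/
def LastStep (k : ℕ) : Prop :=
  ∀ D : ℕ, 0 < D → 3 * D + 2 ≤ k →
    ∃ K : ℕ, 0 < K ∧ StepProp (Avoids D k) (fun A => A ⊆ {0})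
      (((D + 1).choose ((D + 1) / 2) : ℕ) : ℝ) K

/-- `log₂` of the factor lost per dimension in the last step. -/
noncomputable def lastB (n : ℕ) : ℝ :=
  Real.logb 2 (((2 ^ (n - 2) + 1).choose (2 ^ (n - 3)) : ℕ) : ℝ)

/-- The new constant. -/
noncomputable def newConst (n : ℕ) : ℝ :=
  (n:ℝ) * (2:ℝ) ^ (((n:ℝ) - 1) / 2) * (lastB n / 2 ^ (n - 2)) ^ ((n:ℝ)⁻¹)

/-- A step with the best choice of `c`. -/
theorem dens_step_opt {P Q : Finset ℕ → Prop} {h G : ℝ} {p K : ℕ} (hK : 0 < K)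
    (hstep : StepProp P Q h K) (hh : 1 < h) (hG : 0 < G) (hp : 1 ≤ p)
    (hQ : Dens Q ((p:ℝ) * G ^ ((p:ℝ)⁻¹)) p) :
    Dens P (((p + 1 : ℕ):ℝ) * (2 * Real.logb 2 h * G) ^ ((((p + 1 : ℕ)):ℝ)⁻¹)) (p + 1) := by
  set b := Real.logb 2 h with hb
  have hb0 : 0 < b := Real.logb_pos one_lt_two hh
  set V := (2 * b * G) ^ ((((p + 1 : ℕ)):ℝ)⁻¹) with hV
  have hV0 : 0 < V := Real.rpow_pos_of_pos (by positivity) _
  have hVp : V ^ (p + 1) = 2 * b * G :=
    Real.rpow_inv_natCast_pow (by positivity) (by omega)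
  have key := dens_step (c := V / b) hK hstep hh.le (by positivity) hp (by positivity) hQ
  have h1 : G ^ ((p:ℝ)⁻¹) * (2 / (V / b)) ^ ((p:ℝ)⁻¹) = V := by
    rw [← Real.mul_rpow hG.le (by positivity)]
    have : G * (2 / (V / b)) = V ^ p := by
      field_simp
      linear_combination -hVp
    rw [this, Real.pow_rpow_inv_natCast hV0.le (by omega)]
  have h2 : V / b * b + (p:ℝ) * G ^ ((p:ℝ)⁻¹) * (2 / (V / b)) ^ ((p:ℝ)⁻¹)
      = ((p + 1 : ℕ):ℝ) * V := by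
    rw [div_mul_cancel₀ _ hb0.ne', mul_assoc, h1]
    push_cast; ring
  rwa [← hb, h2] at key

theorem sum_degrees (j m : ℕ) (hm : m ≤ j) :
    2 * ((∑ i ∈ Finset.range m, (j - i) : ℕ) : ℝ) = m * (2 * j - m + 1) := by
  induction m with
  | zero => simp
  | succ m ih =>
    rw [Finset.sum_range_succ]
    have h := ih (by omega)
    push_cast [Nat.cast_sub (show m ≤ j by omega)] at h ⊢
    linear_combination h

theorem choose_lastB (n : ℕ) (hn : 3 ≤ n) :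
    1 < ((2 ^ (n - 2) + 1).choose (2 ^ (n - 3)) : ℕ) ∧
      ((2 ^ (n - 2) + 1).choose (2 ^ (n - 3))) < 2 ^ (2 ^ (n - 2)) := by
  set a := 2 ^ (n - 3) with ha
  have ha1 : 1 ≤ a := Nat.one_le_two_pow
  have hm : 2 ^ (n - 2) = 2 * a := by
    rw [ha, ← pow_succ']; congr 1; omega
  rw [hm]
  have hsymm : (2 * a + 1).choose (a + 1) = (2 * a + 1).choose a := Nat.choose_symm_half a
  constructor
  · obtain ⟨b, hb⟩ : ∃ b, a = b + 1 := ⟨a - 1, by omega⟩
    rw [hb, Nat.choose_succ_succ]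
    have h1 : 0 < (2 * (b + 1)).choose b := Nat.choose_pos (by omega)
    have h2 : 0 < (2 * (b + 1)).choose (b + 1) := Nat.choose_pos (by omega)
    simp only [Nat.succ_eq_add_one]
    omega
  · have hsub : ({0, a, a + 1} : Finset ℕ) ⊆ Finset.range (2 * a + 1 + 1) := by
      intro x hx; simp at hx ⊢; omega
    have hsum := Finset.sum_le_sum_of_subset (f := fun i => (2 * a + 1).choose i) hsub
    rw [Nat.sum_range_choose, Finset.sum_insert (by simp; omega),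
      Finset.sum_insert (by simp), Finset.sum_singleton] at hsum
    simp only [Nat.choose_zero_right, hsymm] at hsum
    have : 2 ^ (2 * a + 1) = 2 * 2 ^ (2 * a) := pow_succ' 2 _
    omega

theorem lastB_pos (n : ℕ) (hn : 3 ≤ n) : 0 < lastB n :=
  Real.logb_pos one_lt_two (by exact_mod_cast (choose_lastB n hn).1)

theorem lastB_lt (n : ℕ) (hn : 3 ≤ n) : lastB n < (2:ℝ) ^ (n - 2) := by
  have h := (choose_lastB n hn)
  have h1 : (((2 ^ (n - 2) + 1).choose (2 ^ (n - 3)) : ℕ) : ℝ) < (2:ℝ) ^ ((2:ℝ) ^ (n - 2)) := by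
    rw [show ((2:ℝ) ^ (n - 2)) = ((2 ^ (n - 2) : ℕ) : ℝ) by push_cast; rfl, Real.rpow_natCast]
    exact_mod_cast h.2
  have h0 : (0:ℝ) < (((2 ^ (n - 2) + 1).choose (2 ^ (n - 3)) : ℕ) : ℝ) := by
    exact_mod_cast lt_trans one_pos h.1
  exact (Real.logb_lt_iff_lt_rpow one_lt_two h0).2 h1

/-- The new constant is smaller than O'Bryant's `n 2^((n-1)/2)`. -/
theorem newConst_lt (n : ℕ) (hn : 3 ≤ n) :
    newConst n < (n:ℝ) * (2:ℝ) ^ (((n:ℝ) - 1) / 2) := by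
  have hn0 : (0:ℝ) < n := by exact_mod_cast (show 0 < n by omega)
  have hb := lastB_pos n hn
  have h1 : (lastB n / 2 ^ (n - 2)) ^ ((n:ℝ)⁻¹) < 1 :=
    Real.rpow_lt_one (by positivity) ((div_lt_one (by positivity)).2 (lastB_lt n hn))
      (by positivity)
  have h2 : 0 < (n:ℝ) * (2:ℝ) ^ (((n:ℝ) - 1) / 2) := by positivity
  exact mul_lt_of_lt_one_right h2 h1

/-- For `n = 3` (so `k = 8`) the constant is below `5.56`. -/
theorem newConst_three : newConst 3 ≤ 5.56 := by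
  have hb : lastB 3 ≤ 27 / 17 := by
    have e : ((2 ^ (3 - 2) + 1).choose (2 ^ (3 - 3)) : ℕ) = 3 := by decide
    rw [lastB, e, le_div_iff₀ (by norm_num), mul_comm]
    have h1 : Real.logb 2 ((3:ℝ) ^ 17) ≤ Real.logb 2 ((2:ℝ) ^ 27) :=
      Real.logb_le_logb_of_le one_lt_two (by norm_num) (by norm_num)
    rw [Real.logb_pow, Real.logb_pow, Real.logb_self_eq_one one_lt_two] at h1
    push_cast at h1 ⊢
    linarith
  have hb0 := lastB_pos 3 le_rfl
  set X := (lastB 3 / 2 ^ (3 - 2)) ^ (((3:ℕ):ℝ)⁻¹) with hX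
  have hX0 : 0 ≤ X := by positivity
  have hX3 : X ^ 3 = lastB 3 / 2 ^ (3 - 2) := Real.rpow_inv_natCast_pow (by positivity) (by omega)
  have e2 : (2:ℝ) ^ ((((3:ℕ):ℝ) - 1) / 2) = 2 := by norm_num
  rw [newConst, e2, ← hX]
  push_cast
  by_contra hc
  have h5 : (5.56:ℝ) / 6 ≤ X := by linarith
  have h6 : ((5.56:ℝ) / 6) ^ 3 ≤ X ^ 3 := pow_le_pow_left₀ (by norm_num) h5 3
  rw [hX3] at h6
  norm_num at h6
  linarith

/-- The tower: densities for `Avoids (2 ^ (n - 2 - m))`. -/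
theorem dens_chain {k n : ℕ} (hn : 3 ≤ n) (hk : 3 * 2 ^ (n - 2) + 2 ≤ k)
    (hO : OuterStep k) (hL : LastStep k) :
    ∀ m : ℕ, m ≤ n - 2 → Dens (Avoids (2 ^ (n - 2 - m)) k)
      (((m + 2 : ℕ):ℝ) * (lastB n * (2:ℝ) ^ (1 + ∑ i ∈ Finset.range m, (n - 2 - i)))
        ^ ((((m + 2 : ℕ)):ℝ)⁻¹)) (m + 2) := by
  intro m
  induction m with
  | zero =>
    intro _
    obtain ⟨K, hK, hs⟩ := hL (2 ^ (n - 2)) (by positivity) hk
    have e : (2 ^ (n - 2) + 1) / 2 = 2 ^ (n - 3) := by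
      have : 2 ^ (n - 2) = 2 * 2 ^ (n - 3) := by rw [← pow_succ']; congr 1; omega
      omega
    rw [e] at hs
    have h := dens_step_opt (G := 1) (p := 1) hK hs (by exact_mod_cast (choose_lastB n hn).1)
      one_pos le_rfl (by simpa using dens_base)
    have e2 : lastB n * (2:ℝ) ^ (1 + ∑ i ∈ Finset.range 0, (n - 2 - i)) = 2 * lastB n * 1 := by
      simp; ring
    rw [e2, Nat.sub_zero]
    exact h
  | succ m ih =>
    intro hm
    have hD : 2 ^ (n - 2 - m) = 2 * 2 ^ (n - 2 - (m + 1)) := by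
      rw [← pow_succ']; congr 1; omega
    have hk2 : 2 * 2 ^ (n - 2 - (m + 1)) < k := by
      have : 2 ^ (n - 2 - m) ≤ 2 ^ (n - 2) := Nat.pow_le_pow_right two_pos (by omega)
      omega
    obtain ⟨K, hK, hs⟩ := hO _ (by positivity) hk2
    rw [← hD] at hs
    have hb : 0 < lastB n := lastB_pos n hn
    have hh : (1:ℝ) < (2:ℝ) ^ (2 ^ (n - 2 - (m + 1))) :=
      one_lt_pow₀ one_lt_two (by positivity)
    have h := dens_step_opt hK hs hh (by positivity) (by omega) (ih (by omega))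
    have e : 2 * Real.logb 2 ((2:ℝ) ^ (2 ^ (n - 2 - (m + 1)))) *
        (lastB n * (2:ℝ) ^ (1 + ∑ i ∈ Finset.range m, (n - 2 - i)))
        = lastB n * (2:ℝ) ^ (1 + ∑ i ∈ Finset.range (m + 1), (n - 2 - i)) := by
      rw [Real.logb_pow, Real.logb_self_eq_one one_lt_two, Finset.sum_range_succ, mul_one,
        show n - 2 - m = (n - 2 - (m + 1)) + 1 by omega]
      push_cast
      ring
    rw [e] at h
    exact h

/-- Sets without `k`-term progressions, as large as the new constant allows. -/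
theorem large_progression_free {k n : ℕ} (hn : 3 ≤ n) (hk : 3 * 2 ^ (n - 2) + 2 ≤ k)
    (hO : OuterStep k) (hL : LastStep k) :
    ∀ ε : ℝ, 0 < ε → ∀ᶠ N : ℕ in atTop, ∃ A : Finset ℕ, A ⊆ Finset.range N ∧
      (∀ a d : ℕ, 0 < d → ¬ ∀ j < k, a + j * d ∈ A) ∧
      (N:ℝ) * (2:ℝ) ^ (-(newConst n + ε) * Real.logb 2 N ^ ((n:ℝ)⁻¹)) ≤ A.card := by
  have h := dens_chain hn hk hO hL (n - 2) le_rfl
  rw [show n - 2 + 2 = n by omega, show n - 2 - (n - 2) = 0 by omega, pow_zero] at h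
  have hb := lastB_pos n hn
  have e : (n:ℝ) * (lastB n * (2:ℝ) ^ (1 + ∑ i ∈ Finset.range (n - 2), (n - 2 - i))) ^ ((n:ℝ)⁻¹)
      = newConst n := by
    have hs := sum_degrees (n - 2) (n - 2) le_rfl
    set S := ∑ i ∈ Finset.range (n - 2), (n - 2 - i)
    have hn0 : (n:ℝ) ≠ 0 := by exact_mod_cast (show n ≠ 0 by omega)
    have hn2 : ((n - 2 : ℕ) : ℝ) = (n:ℝ) - 2 := by rw [Nat.cast_sub (by omega)]; norm_num
    rw [hn2] at hs
    have hx : lastB n * (2:ℝ) ^ (1 + S)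
        = (2:ℝ) ^ ((n:ℝ) * (((n:ℝ) - 1) / 2)) * (lastB n / 2 ^ (n - 2)) := by
      have : (2:ℝ) ^ ((n:ℝ) * (((n:ℝ) - 1) / 2)) = (2:ℝ) ^ (1 + S) * 2 ^ (n - 2) := by
        rw [← pow_add, ← Real.rpow_natCast]
        congr 1
        push_cast
        rw [hn2]
        linear_combination (-1/2 : ℝ) * hs
      rw [this]; field_simp
    rw [hx, Real.mul_rpow (by positivity) (by positivity), ← Real.rpow_mul two_pos.le, newConst,
      show (n:ℝ) * (((n:ℝ) - 1) / 2) * (n:ℝ)⁻¹ = ((n:ℝ) - 1) / 2 by field_simp]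
    ring
  rw [e] at h
  intro ε hε
  filter_upwards [h ε hε] with N hN
  obtain ⟨A, hA, hav, hcard⟩ := hN
  refine ⟨A, hA, ?_, hcard⟩
  intro a d hd hall
  have hk2 : 2 ≤ k := by omega
  have := hav (fun j => ((a + j * d : ℕ) : ℤ)) ?_ (fun j hj => ⟨_, hall j hj, rfl⟩) 1
  · simp at this; omega
  · funext j
    simp [fwdDiff]
    ring

end Vale.P057
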